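import Mathlib

/-!
P129: in every infinite-dimensional normed space, for every `N` there are `N` vectors of norm
bounded below having an upper `ℓ²` estimate with constant one (Dvoretzky-Rogers lemma).
-/

open scoped BigOperators

namespace Vale.Agent.P129

variable {𝕜 : Type*} [RCLike 𝕜] {E : Type*} [NormedAddCommGroup E] [NormedSpace 𝕜 E]

/-- The space of coordinates. -/
abbrev EN (𝕜 : Type*) (n : ℕ) := EuclideanSpace 𝕜 (Fin n)

theorem det_two_scales {n : ℕ} (K : Submodule 𝕜 (EN 𝕜 n)) (a b : 𝕜) :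
    LinearMap.det ((a • K.starProjection + b • Kᗮ.starProjection : EN 𝕜 n →L[𝕜] EN 𝕜 n) :
      EN 𝕜 n →ₗ[𝕜] EN 𝕜 n) =
      a ^ Module.finrank 𝕜 K * b ^ Module.finrank 𝕜 Kᗮ := by
  set e := Submodule.prodEquivOfIsCompl K Kᗮ K.isCompl_orthogonal
  have h : ((a • K.starProjection + b • Kᗮ.starProjection : EN 𝕜 n →L[𝕜] EN 𝕜 n) :
      EN 𝕜 n →ₗ[𝕜] EN 𝕜 n) =
      (e : (K × Kᗮ) →ₗ[𝕜] EN 𝕜 n) ∘ₗ
        (LinearMap.prodMap (a • LinearMap.id) (b • LinearMap.id)) ∘ₗ
        (e.symm : EN 𝕜 n →ₗ[𝕜] K × Kᗮ) := by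
    apply LinearMap.ext
    intro x
    obtain ⟨p, rfl⟩ := e.surjective x
    simp only [LinearMap.comp_apply, LinearEquiv.coe_coe, LinearEquiv.symm_apply_apply]
    obtain ⟨p, q⟩ := p
    simp [e, Submodule.coe_prodEquivOfIsCompl', Submodule.starProjection_eq_self_iff.mpr p.2,
      (K.starProjection_apply_eq_zero_iff).mpr q.2]
  rw [h, LinearMap.det_conj, LinearMap.det_prodMap, LinearMap.det_smul, LinearMap.det_smul]
  simp

/-- The maps whose composition with a coordinate map is a contraction. -/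
def contractions {n : ℕ} (V : EN 𝕜 n →L[𝕜] E) : Set (EN 𝕜 n →L[𝕜] EN 𝕜 n) :=
  {A | ∀ c, ‖V (A c)‖ ≤ ‖c‖}

theorem exists_max {n : ℕ} (V : EN 𝕜 n →L[𝕜] E) (hV : Function.Injective V) :
    ∃ A ∈ contractions V, A.det ≠ 0 ∧ ∀ B ∈ contractions V, ‖B.det‖ ≤ ‖A.det‖ := by
  obtain ⟨c, hc, hcV⟩ := (V : EN 𝕜 n →ₗ[𝕜] E).exists_antilipschitzWith
    (LinearMap.ker_eq_bot.mpr hV)
  have hbd : Bornology.IsBounded (contractions V) := by
    refine (Metric.isBounded_closedBall (x := 0) (r := (c : ℝ))).subset fun A hA => ?_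
    rw [mem_closedBall_zero_iff]
    refine A.opNorm_le_bound c.2 fun x => ?_
    have := hcV.le_mul_dist (A x) 0
    simp only [ContinuousLinearMap.coe_coe, map_zero, dist_zero_right] at this
    exact this.trans (mul_le_mul_of_nonneg_left (hA x) c.2)
  have hcl : IsClosed (contractions V) := by
    have e : contractions V = ⋂ x, {A : EN 𝕜 n →L[𝕜] EN 𝕜 n | ‖V (A x)‖ ≤ ‖x‖} := by
      ext A; simp [contractions]
    rw [e]
    exact isClosed_iInter fun x => isClosed_le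
      ((V.continuous.comp (ContinuousLinearMap.apply 𝕜 (EN 𝕜 n) x).continuous).norm)
      continuous_const
  have : ProperSpace (EN 𝕜 n →L[𝕜] EN 𝕜 n) := FiniteDimensional.proper_rclike 𝕜 _
  have hcomp := Metric.isCompact_of_isClosed_isBounded hcl hbd
  set r : 𝕜 := (((‖V‖ + 1)⁻¹ : ℝ) : 𝕜)
  have hr : r • ContinuousLinearMap.id 𝕜 (EN 𝕜 n) ∈ contractions V := fun x => by
    have h1 : ‖r‖ = (‖V‖ + 1)⁻¹ := by
      rw [RCLike.norm_ofReal, abs_of_pos (by positivity)]
    rw [smul_apply, map_smul, norm_smul, h1, inv_mul_le_iff₀ (by positivity)]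
    exact (V.le_opNorm x).trans (mul_le_mul_of_nonneg_right (by linarith) (norm_nonneg x))
  obtain ⟨A, hA, hmax⟩ := hcomp.exists_isMaxOn ⟨_, hr⟩
    (ContinuousLinearMap.continuous_det.norm).continuousOn
  refine ⟨A, hA, fun h0 => ?_, fun B hB => hmax hB⟩
  have := hmax hr
  simp only [Set.mem_ofPred_eq, h0, norm_zero, norm_le_zero_iff, ContinuousLinearMap.det] at this
  rw [ContinuousLinearMap.toLinearMap_smul, LinearMap.det_smul] at this
  have hr0 : r ≠ 0 := RCLike.ofReal_ne_zero.mpr (by positivity)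
  simp [hr0] at this

theorem exists_direction {N : ℕ} (V : EN 𝕜 (2 * N) →L[𝕜] E)
    {A : EN 𝕜 (2 * N) →L[𝕜] EN 𝕜 (2 * N)} (hA : A ∈ contractions V) (hdet : A.det ≠ 0)
    (hmax : ∀ B ∈ contractions V, ‖B.det‖ ≤ ‖A.det‖)
    (K : Submodule 𝕜 (EN 𝕜 (2 * N))) (hK : Module.finrank 𝕜 K < N) :
    ∃ u ∈ Kᗮ, ‖u‖ = 1 ∧ 1 / 4 < ‖V (A u)‖ := by
  by_contra hno
  push Not at hno
  have hsmall : ∀ u ∈ Kᗮ, ‖V (A u)‖ ≤ 1 / 4 * ‖u‖ := by
    intro u hu
    rcases eq_or_ne u 0 with rfl | h0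
    · simp
    have h := hno ((((‖u‖⁻¹ : ℝ)) : 𝕜) • u) (Kᗮ.smul_mem _ hu)
      (by rw [norm_smul, RCLike.norm_ofReal, abs_inv, abs_norm,
        inv_mul_cancel₀ (norm_ne_zero_iff.mpr h0)])
    rw [map_smul, map_smul, norm_smul, RCLike.norm_ofReal, abs_inv, abs_norm,
      inv_mul_le_iff₀ (norm_pos_iff.mpr h0)] at h
    linarith
  set a : 𝕜 := (((1 / 2 : ℝ)) : 𝕜)
  set S : EN 𝕜 (2 * N) →L[𝕜] EN 𝕜 (2 * N) :=
    a • K.starProjection + (2 : 𝕜) • Kᗮ.starProjection
  have hS : A.comp S ∈ contractions V := fun c => by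
    have e : V (A (S c)) =
        a • V (A (K.starProjection c)) + (2 : 𝕜) • V (A (Kᗮ.starProjection c)) := by
      simp [S, map_add, map_smul]
    rw [ContinuousLinearMap.comp_apply, e]
    refine (norm_add_le _ _).trans ?_
    rw [norm_smul, norm_smul, RCLike.norm_two, RCLike.norm_ofReal]
    have h1 := (hA (K.starProjection c)).trans (K.norm_starProjection_apply_le c)
    have h2 := (hsmall _ (Kᗮ.starProjection_apply_mem c))
    have h3 := Kᗮ.norm_starProjection_apply_le c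
    have h4 : |(1 / 2 : ℝ)| = 1 / 2 := by norm_num
    rw [h4]
    linarith
  have hd := hmax _ hS
  have hle : A.det ≠ 0 → ‖(S : EN 𝕜 (2 * N) →ₗ[𝕜] EN 𝕜 (2 * N)).det‖ ≤ 1 := by
    intro _
    have e : (A.comp S).det = A.det * (S : EN 𝕜 (2 * N) →ₗ[𝕜] EN 𝕜 (2 * N)).det := by
      simp [ContinuousLinearMap.det, LinearMap.det_comp]
    rw [e, norm_mul] at hd
    exact le_of_mul_le_mul_left (by linarith) (norm_pos_iff.mpr hdet)
  have h := hle hdet
  rw [det_two_scales, norm_mul, norm_pow, norm_pow, RCLike.norm_two, RCLike.norm_ofReal] at h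
  have hsum := K.finrank_add_finrank_orthogonal
  rw [finrank_euclideanSpace_fin] at hsum
  obtain ⟨d, hd'⟩ : ∃ d, Module.finrank 𝕜 Kᗮ = Module.finrank 𝕜 K + (d + 1) :=
    ⟨2 * N - 2 * Module.finrank 𝕜 K - 1, by omega⟩
  rw [hd', pow_add, ← mul_assoc, ← mul_pow] at h
  norm_num at h
  linarith [one_lt_pow₀ (show (1 : ℝ) < 2 by norm_num) (show d + 1 ≠ 0 by omega)]

/-- Vectors bounded below with an upper `ℓ²` estimate. -/
theorem exists_upper_two (hinf : ¬ FiniteDimensional 𝕜 E) (N : ℕ) :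
    ∃ g : Fin N → E, (∀ i, 1 / 4 < ‖g i‖) ∧
      ∀ a : Fin N → 𝕜, ‖∑ i, a i • g i‖ ≤ Real.sqrt (∑ i, ‖a i‖ ^ 2) := by
  obtain ⟨v, hv⟩ : ∃ v : Fin (2 * N) → E, LinearIndependent 𝕜 v := by
    refine exists_linearIndependent_of_le_rank ?_
    exact (Cardinal.natCast_lt_aleph0.trans_le
      (not_lt.mp fun h => hinf (Module.rank_lt_aleph0_iff.mp h))).le
  set V : EN 𝕜 (2 * N) →L[𝕜] E := LinearMap.toContinuousLinearMap
    ((Fintype.linearCombination 𝕜 v).comp
      (WithLp.linearEquiv 2 𝕜 (Fin (2 * N) → 𝕜)).toLinearMap)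
  have hV : Function.Injective V := by
    intro p q h
    exact (WithLp.linearEquiv 2 𝕜 (Fin (2 * N) → 𝕜)).injective
      (hv.fintypeLinearCombination_injective h)
  obtain ⟨A, hA, hdet, hmax⟩ := exists_max V hV
  suffices h : ∀ j ≤ N, ∃ u : Fin j → EN 𝕜 (2 * N),
      Orthonormal 𝕜 u ∧ ∀ i, 1 / 4 < ‖V (A (u i))‖ by
    obtain ⟨u, hu, hbig⟩ := h N le_rfl
    refine ⟨fun i => V (A (u i)), hbig, fun a => ?_⟩
    have e : ∑ i, a i • V (A (u i)) = V (A (∑ i, a i • u i)) := by simp [map_sum, map_smul]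
    rw [e]
    refine (hA _).trans (le_of_eq ?_)
    rw [norm_eq_sqrt_re_inner (𝕜 := 𝕜), hu.inner_sum]
    congr 1
    rw [map_sum]
    exact Finset.sum_congr rfl fun i _ => by simp [RCLike.conj_mul]
  intro j
  induction j with
  | zero => exact fun _ => ⟨Fin.elim0, ⟨fun i => i.elim0, fun i => i.elim0⟩, fun i => i.elim0⟩
  | succ j ih =>
    intro hj
    obtain ⟨u, hu, hbig⟩ := ih (by omega)
    obtain ⟨w, hw, hw1, hwb⟩ := exists_direction V hA hdet hmax
      (Submodule.span 𝕜 (Set.range u))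
      (by rw [finrank_span_eq_card hu.linearIndependent, Fintype.card_fin]; omega)
    refine ⟨Fin.cons w u, ?_, fun i => ?_⟩
    · refine ⟨fun i => ?_, ?_⟩
      · cases i using Fin.cases with
        | zero => simpa using hw1
        | succ i => simpa using hu.1 i
      · intro i k hik
        have hp : ∀ m, inner 𝕜 (u m) w = (0 : 𝕜) := fun m =>
          hw (u m) (Submodule.subset_span (Set.mem_range_self m))
        show inner 𝕜 _ _ = (0 : 𝕜)
        cases i using Fin.cases with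
        | zero =>
          cases k using Fin.cases with
          | zero => exact absurd rfl hik
          | succ k => simpa [inner_eq_zero_symm] using hp k
        | succ i =>
          cases k using Fin.cases with
          | zero => simpa using hp i
          | succ k => simpa using hu.2 fun h => hik (congrArg Fin.succ h)
    · cases i using Fin.cases with
      | zero => simpa using hwb
      | succ i => simpa using hbig i

/-- Every point is large on few of these functionals. -/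
theorem sum_sq_apply_le {N : ℕ} {X : Type*} [NormedAddCommGroup X] [NormedSpace 𝕜 X]
    (g : Fin N → X →L[𝕜] 𝕜)
    (hg : ∀ a : Fin N → 𝕜, ‖∑ i, a i • g i‖ ≤ Real.sqrt (∑ i, ‖a i‖ ^ 2)) (x : X) :
    ∑ i, ‖g i x‖ ^ 2 ≤ ‖x‖ ^ 2 := by
  set Q := ∑ i, ‖g i x‖ ^ 2 with hQ
  have h0 : 0 ≤ Q := by positivity
  set a : Fin N → 𝕜 := fun i => starRingEnd 𝕜 (g i x)
  have e : (∑ i, a i • g i) x = (Q : 𝕜) := by
    simp [a, hQ, sum_apply, RCLike.conj_mul]
  have h1 : Q ≤ Real.sqrt Q * ‖x‖ := by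
    have h := ((∑ i, a i • g i).le_opNorm x).trans
      (mul_le_mul_of_nonneg_right (hg a) (norm_nonneg x))
    rw [e, RCLike.norm_ofReal, abs_of_nonneg h0] at h
    simpa [a, hQ] using h
  have h2 : Real.sqrt Q ≤ ‖x‖ := by
    rcases (Real.sqrt_nonneg Q).eq_or_lt with h | h
    · rw [← h]; exact norm_nonneg x
    · exact le_of_mul_le_mul_left (by rwa [Real.mul_self_sqrt h0]) h
  calc Q = Real.sqrt Q ^ 2 := (Real.sq_sqrt h0).symm
    _ ≤ _ := pow_le_pow_left₀ (Real.sqrt_nonneg Q) h2 2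

end Vale.Agent.P129
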