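import Mathlib

/-!
P129: a seminormalised sequence of functionals that is absolutely summable at every point of a
dense set yields a separable infinite-dimensional quotient.
-/

open scoped BigOperators
open Filter Topology

namespace Vale.Agent.P129

variable {𝕜 : Type*} [RCLike 𝕜] {X : Type*} [NormedAddCommGroup X] [NormedSpace 𝕜 X]

/-- The functionals of the sequence tend to zero at every point. -/
theorem tendsto_apply_zero {y : ℕ → X →L[𝕜] 𝕜} (hy : ∀ n, ‖y n‖ ≤ 1) {D : Set X} (hD : Dense D)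
    (hs : ∀ x ∈ D, Summable fun n => ‖y n x‖) (x : X) :
    Tendsto (fun n => y n x) atTop (𝓝 0) := by
  rw [Metric.tendsto_atTop]
  intro ε hε
  obtain ⟨d, hd, hxd⟩ := Metric.mem_closure_iff.mp (hD x) (ε / 2) (by linarith)
  obtain ⟨N, hN⟩ := Metric.tendsto_atTop.mp (hs d hd).tendsto_atTop_zero (ε / 2) (by linarith)
  refine ⟨N, fun n hn => ?_⟩
  have h1 := hN n hn
  rw [dist_eq_norm, sub_zero, norm_norm] at h1
  rw [dist_eq_norm] at hxd
  rw [dist_eq_norm, sub_zero]
  have h2 : ‖y n (x - d)‖ ≤ ‖x - d‖ :=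
    ((y n).le_opNorm _).trans (mul_le_of_le_one_left (norm_nonneg _) (hy n))
  have h3 := norm_add_le (y n d) (y n (x - d))
  rw [← map_add, add_sub_cancel] at h3
  linarith

/-- Eventually the functionals are far from any given finite-dimensional space of functionals. -/
theorem eventually_far {y : ℕ → X →L[𝕜] 𝕜} {c : ℝ} (hc : 0 < c) (hlow : ∀ n, c ≤ ‖y n‖)
    (hy : ∀ n, ‖y n‖ ≤ 1) (h0 : ∀ x, Tendsto (fun n => y n x) atTop (𝓝 0))
    (F : Submodule 𝕜 (X →L[𝕜] 𝕜)) [FiniteDimensional 𝕜 F] :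
    ∀ᶠ n in atTop, ∀ v ∈ F, c / 4 < ‖y n - v‖ := by
  by_contra hno
  rw [not_eventually] at hno
  obtain ⟨φ, hφ, hbad⟩ := extraction_of_frequently_atTop hno
  push Not at hbad
  choose v hv hvd using hbad
  have : ProperSpace F := FiniteDimensional.proper_rclike 𝕜 F
  have hb : ∀ n, ‖v n‖ ≤ 1 + c / 4 := fun n => by
    have := norm_sub_le_norm_sub_add_norm_sub (v n) (y (φ n)) 0
    rw [sub_zero, sub_zero, norm_sub_rev] at this
    linarith [hvd n, hy (φ n)]
  obtain ⟨w, -, ψ, hψ, hlim⟩ := (isCompact_closedBall (0 : F) (1 + c / 4)).tendsto_subseq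
    (x := fun n => (⟨v n, hv n⟩ : F)) fun n => mem_closedBall_zero_iff.mpr (hb n)
  have hlim' : Tendsto (fun n => v (ψ n)) atTop (𝓝 (w : X →L[𝕜] 𝕜)) :=
    (continuous_subtype_val.tendsto w).comp hlim
  have hge : c - c / 4 ≤ ‖(w : X →L[𝕜] 𝕜)‖ :=
    ge_of_tendsto hlim'.norm (Eventually.of_forall fun n => by
      linarith [norm_le_norm_add_norm_sub' (y (φ (ψ n))) (v (ψ n)), hvd (ψ n), hlow (φ (ψ n))])
  have hle : ‖(w : X →L[𝕜] 𝕜)‖ ≤ c / 4 := by
    refine ContinuousLinearMap.opNorm_le_bound _ (by linarith) fun x => ?_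
    have h1 : Tendsto (fun n => ‖v (ψ n) x‖) atTop (𝓝 ‖(w : X →L[𝕜] 𝕜) x‖) :=
      (((ContinuousLinearMap.apply 𝕜 𝕜 x).continuous.tendsto _).comp hlim').norm
    have h2 : Tendsto (fun n => ‖y (φ (ψ n)) x‖ + c / 4 * ‖x‖) atTop (𝓝 (c / 4 * ‖x‖)) := by
      simpa using (((h0 x).comp ((hφ.comp hψ).tendsto_atTop)).norm.add_const (c / 4 * ‖x‖))
    refine le_of_tendsto_of_tendsto' h1 h2 fun n => ?_
    have h3 := ((y (φ (ψ n)) - v (ψ n)).le_opNorm x).trans
      (mul_le_mul_of_nonneg_right (hvd (ψ n)) (norm_nonneg x))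
    have h4 := norm_sub_le (y (φ (ψ n)) x) ((y (φ (ψ n)) - v (ψ n)) x)
    rw [sub_apply, sub_sub_cancel] at h4
    rw [sub_apply] at h3
    linarith
  linarith

/-- A vector of bounded norm normed by `f` and killed by a finite set far from `f`. -/
theorem exists_pretest (F : Finset (X →L[𝕜] 𝕜)) (f : X →L[𝕜] 𝕜) {d : ℝ} (hd : 0 < d)
    (hfar : ∀ v ∈ Submodule.span 𝕜 (F : Set (X →L[𝕜] 𝕜)), d < ‖f - v‖) :
    ∃ z : X, f z = 1 ∧ (∀ v ∈ F, v z = 0) ∧ ‖z‖ ≤ 2 / d := by
  classical
  set K : Submodule 𝕜 X := ⨅ v : F, LinearMap.ker ((v : X →L[𝕜] 𝕜) : X →ₗ[𝕜] 𝕜) with hK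
  obtain ⟨φ, hφ, hφn⟩ := exists_extension_norm_eq K (f.comp K.subtypeL)
  have hmem : f - φ ∈ Submodule.span 𝕜 (F : Set (X →L[𝕜] 𝕜)) := by
    have h := mem_span_of_iInf_ker_le_ker
      (L := fun v : F => ((v : X →L[𝕜] 𝕜) : X →ₗ[𝕜] 𝕜))
      (K := ((f - φ : X →L[𝕜] 𝕜) : X →ₗ[𝕜] 𝕜)) fun x hx => by
        have := hφ ⟨x, hx⟩
        simp only [ContinuousLinearMap.comp_apply, Submodule.subtypeL_apply] at this
        simp [this]
    obtain ⟨c, hc⟩ := (Submodule.mem_span_range_iff_exists_fun 𝕜).mp h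
    have e : f - φ = ∑ v : F, c v • (v : X →L[𝕜] 𝕜) := by
      ext x
      simpa using (LinearMap.congr_fun hc x).symm
    rw [e]
    exact sum_mem fun v _ => Submodule.smul_mem _ _ (Submodule.subset_span v.2)
  have hn : d < ‖f.comp K.subtypeL‖ := by
    rw [← hφn, ← sub_sub_cancel f φ]
    exact hfar _ hmem
  obtain ⟨k, hk⟩ : ∃ k : K, d * ‖k‖ < ‖f k‖ := by
    by_contra hno
    push Not at hno
    exact absurd ((f.comp K.subtypeL).opNorm_le_bound hd.le hno) (not_le.mpr hn)
  have hk0 : 0 < ‖f k‖ := lt_of_le_of_lt (by positivity) hk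
  refine ⟨(f k)⁻¹ • (k : X), by simp [norm_pos_iff.mp hk0], fun v hv => ?_, ?_⟩
  · have h : (k : X) ∈ LinearMap.ker (v : X →ₗ[𝕜] 𝕜) :=
      (Submodule.mem_iInf _).mp k.2 ⟨v, hv⟩
    simp [show v (k : X) = 0 from h]
  · rw [norm_smul, norm_inv, inv_mul_le_iff₀ hk0, ← mul_div_assoc, le_div_iff₀ hd]
    change ‖(k : X)‖ * d ≤ _
    have : d * ‖(k : X)‖ < ‖f k‖ := hk
    linarith

/-- A triangular subsequence with norming vectors. -/
theorem exists_triangular {y : ℕ → X →L[𝕜] 𝕜} (hy : ∀ n, ‖y n‖ ≤ 1) {c : ℝ} (hc : 0 < c)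
    (hlow : ∀ n, c ≤ ‖y n‖) (h0 : ∀ x, Tendsto (fun n => y n x) atTop (𝓝 0)) :
    ∃ (n : ℕ → ℕ) (z : ℕ → X), StrictMono n ∧ (∀ j, ‖z j‖ ≤ 8 / c) ∧ (∀ j, y (n j) (z j) = 1) ∧
      (∀ i j, i < j → y (n i) (z j) = 0) ∧
      ∀ i j, i < j → ‖y (n j) (z i)‖ ≤ c / 32 * (1 / 2) ^ j := by
  classical
  obtain ⟨a, ha, hr⟩ := exists_seq_of_forall_finset_exists (α := ℕ × ℕ × X)
    (fun p => ‖p.2.2‖ ≤ 8 / c ∧ y p.1 p.2.2 = 1)
    (fun p q => p.1 < q.1 ∧ p.2.1 < q.2.1 ∧ y p.1 q.2.2 = 0 ∧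
      ‖y q.1 p.2.2‖ ≤ c / 32 * (1 / 2) ^ q.2.1) fun s _ => by
    set l := s.sup (fun p => p.2.1) + 1
    set F : Finset (X →L[𝕜] 𝕜) := s.image fun p => y p.1
    have hsm : ∀ᶠ m in atTop, ∀ p ∈ s, p.1 < m ∧ ‖y m p.2.2‖ ≤ c / 32 * (1 / 2) ^ l :=
      (eventually_all_finset s).mpr fun p _ => (eventually_gt_atTop _).and
        ((tendsto_norm_zero.comp (h0 p.2.2)).eventually_le_const (by positivity))
    obtain ⟨m, hm, hfar⟩ := (hsm.and (eventually_far hc hlow hy h0
      (Submodule.span 𝕜 (F : Set (X →L[𝕜] 𝕜))))).exists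
    obtain ⟨z, hz1, hz0, hzn⟩ := exists_pretest F (y m) (show 0 < c / 4 by linarith) hfar
    refine ⟨(m, l, z), ⟨hzn.trans_eq (by field_simp; ring), hz1⟩, fun p hp =>
      ⟨(hm p hp).1, Nat.lt_succ_of_le (Finset.le_sup (f := fun p : ℕ × ℕ × X => p.2.1) hp),
        hz0 _ (Finset.mem_image_of_mem _ hp), (hm p hp).2⟩⟩
  have hl : StrictMono fun j => (a j).2.1 :=
    strictMono_nat_of_lt_succ fun j => (hr j (j + 1) (Nat.lt_succ_self j)).2.1
  refine ⟨fun j => (a j).1, fun j => (a j).2.2,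
    strictMono_nat_of_lt_succ fun j => (hr j (j + 1) (Nat.lt_succ_self j)).1,
    fun j => (ha j).1, fun j => (ha j).2, fun i j hij => (hr i j hij).2.2.1,
    fun i j hij => (hr i j hij).2.2.2.trans (mul_le_mul_of_nonneg_left
      (pow_le_pow_of_le_one (by norm_num) (by norm_num) (hl.id_le j)) (by linarith))⟩

variable [CompleteSpace X]

/-- A triangular subsequence splits every summable point. -/
theorem split_mem {w : ℕ → X →L[𝕜] 𝕜} {z : ℕ → X} {c : ℝ} (hc : 0 < c)
    (hz : ∀ j, ‖z j‖ ≤ 8 / c) (hone : ∀ j, w j (z j) = 1)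
    (hup : ∀ i j, i < j → w i (z j) = 0)
    (hlo : ∀ i j, i < j → ‖w j (z i)‖ ≤ c / 32 * (1 / 2) ^ j) (hc1 : c ≤ 1)
    {x : X} (hx : Summable fun j => ‖w j x‖) :
    ∃ m : X, (∀ i, w i m = 0) ∧ x - m ∈ closure (Submodule.span 𝕜 (Set.range z) : Set X) := by
  let s : ℕ → X := fun j => Nat.rec x (fun i u => u - w i u • z i) j
  have hs : ∀ j, s (j + 1) = s j - w j (s j) • z j := fun j => rfl
  set b : ℕ → 𝕜 := fun j => w j (s j)
  have hsum : ∀ j, s j = x - ∑ i ∈ Finset.range j, b i • z i := by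
    intro j
    induction j with
    | zero => simp [s]
    | succ j ih =>
      rw [hs, Finset.sum_range_succ, ← sub_sub, ← ih]
  have hzero : ∀ j, ∀ i < j, w i (s j) = 0 := by
    intro j
    induction j with
    | zero => intro i hi; omega
    | succ j ih =>
      intro i hi
      rw [hs, map_sub, map_smul]
      rcases Nat.lt_succ_iff_lt_or_eq.mp hi with h | h
      · simp [ih i h, hup i j h]
      · subst h; simp [hone]
  set A := ∑' j, ‖w j x‖
  set C : ℕ → ℝ := fun j => ∑ i ∈ Finset.range j, ‖b i‖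
  have hb : ∀ j, ‖b j‖ ≤ ‖w j x‖ + c / 32 * (1 / 2) ^ j * C j := fun j => by
    simp only [b, C, hsum j, map_sub, map_sum, map_smul, smul_eq_mul, Finset.mul_sum]
    refine (norm_sub_le _ _).trans (add_le_add le_rfl ((norm_sum_le _ _).trans
      (Finset.sum_le_sum fun i hi => ?_)))
    rw [norm_mul, mul_comm]
    exact mul_le_mul_of_nonneg_right (hlo i j (Finset.mem_range.mp hi)) (norm_nonneg _)
  have hgeo : ∀ j, C j ≤ 2 * A := by
    intro j
    induction j using Nat.strong_induction_on with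
    | _ j ih =>
      have hA : 0 ≤ A := tsum_nonneg fun _ => norm_nonneg _
      calc C j ≤ ∑ i ∈ Finset.range j, (‖w i x‖ + c / 32 * (1 / 2) ^ i * (2 * A)) :=
            Finset.sum_le_sum fun i hi => (hb i).trans (add_le_add le_rfl
              (mul_le_mul_of_nonneg_left (ih i (Finset.mem_range.mp hi)) (by positivity)))
        _ ≤ A + c / 32 * 2 * (2 * A) := by
            rw [Finset.sum_add_distrib, ← Finset.sum_mul, ← Finset.mul_sum]
            exact add_le_add (hx.sum_le_tsum _ fun _ _ => norm_nonneg _)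
              (mul_le_mul_of_nonneg_right (mul_le_mul_of_nonneg_left (sum_geometric_two_le j)
                (by positivity)) (by linarith))
        _ ≤ 2 * A := by nlinarith
  have hbs : Summable fun j => ‖b j • z j‖ := by
    refine Summable.of_nonneg_of_le (fun _ => norm_nonneg _) (fun j => ?_)
      ((summable_of_sum_range_le (fun _ => norm_nonneg _) hgeo).mul_right (8 / c))
    rw [norm_smul]
    exact mul_le_mul_of_nonneg_left (hz j) (norm_nonneg _)
  obtain ⟨S, hS⟩ := hbs.of_norm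
  have hlim : Tendsto s atTop (𝓝 (x - S)) := by
    simp only [funext hsum]
    exact tendsto_const_nhds.sub hS.tendsto_sum_nat
  refine ⟨x - S, fun i => tendsto_nhds_unique (((w i).continuous.tendsto _).comp hlim)
    (tendsto_const_nhds.congr' ((eventually_gt_atTop i).mono fun j hj => (hzero j i hj).symm)), ?_⟩
  rw [sub_sub_cancel]
  exact mem_closure_of_tendsto hS.tendsto_sum_nat (Eventually.of_forall fun j =>
    sum_mem fun i _ => Submodule.smul_mem _ _ (Submodule.subset_span (Set.mem_range_self i)))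

/-- A strongly normal sequence gives a separable infinite-dimensional quotient. -/
theorem separable_quotient_of_strongly_normal {y : ℕ → X →L[𝕜] 𝕜} (hy : ∀ n, ‖y n‖ ≤ 1) {c : ℝ}
    (hc : 0 < c) (hc1 : c ≤ 1) (hlow : ∀ n, c ≤ ‖y n‖) {D : Set X} (hD : Dense D)
    (hs : ∀ x ∈ D, Summable fun n => ‖y n x‖) :
    ∃ M : Submodule 𝕜 X, IsClosed (M : Set X) ∧ TopologicalSpace.SeparableSpace (X ⧸ M) ∧
      ¬ FiniteDimensional 𝕜 (X ⧸ M) := by
  classical
  obtain ⟨n, z, hn, hz, hone, hup, hlo⟩ :=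
    exists_triangular hy hc hlow (tendsto_apply_zero hy hD hs)
  set M : Submodule 𝕜 X := ⨅ i, LinearMap.ker ((y (n i)) : X →ₗ[𝕜] 𝕜)
  have hM : IsClosed (M : Set X) := by
    simp only [M, Submodule.coe_iInf]
    exact isClosed_iInter fun i => (y (n i)).isClosed_ker
  refine ⟨M, hM, ?_, fun hfin => ?_⟩
  · set Z : Submodule 𝕜 (X ⧸ M) := Submodule.span 𝕜 (Set.range fun j => M.mkQ (z j))
    have hcont : Continuous M.mkQ := continuous_quot_mk
    have hdense : Dense (Z : Set (X ⧸ M)) := by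
      have h1 : M.mkQ '' D ⊆ closure (Z : Set (X ⧸ M)) := by
        rintro _ ⟨x, hx, rfl⟩
        obtain ⟨m, hm, hxm⟩ := split_mem (w := fun i => y (n i)) hc hz hone hup hlo hc1
          ((hs x hx).comp_injective hn.injective)
        have e : M.mkQ x = M.mkQ (x - m) := by
          rw [map_sub, show M.mkQ m = 0 from
            (Submodule.Quotient.mk_eq_zero M).mpr ((Submodule.mem_iInf _).mpr hm), sub_zero]
        rw [e]
        refine map_mem_closure hcont hxm fun u hu => ?_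
        have : M.mkQ u ∈ (Submodule.span 𝕜 (Set.range z)).map M.mkQ :=
          Submodule.mem_map_of_mem hu
        rw [Submodule.map_span, ← Set.range_comp] at this
        exact this
      have h2 : Dense (M.mkQ '' D) :=
        (Function.Surjective.denseRange (M.mkQ_surjective)).dense_image hcont hD
      exact dense_closure.mp (h2.mono h1)
    have hsep : TopologicalSpace.IsSeparable (Set.univ : Set (X ⧸ M)) := by
      rw [← hdense.closure_eq]
      exact ((Set.countable_range _).isSeparable.span).closure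
    exact TopologicalSpace.isSeparable_univ_iff.mp hsep
  · have hli : LinearIndependent 𝕜 fun j => M.mkQ (z j) := by
      rw [linearIndependent_iff']
      intro s g hg
      have hmem : ∑ j ∈ s, g j • z j ∈ M := by
        rw [← Submodule.Quotient.mk_eq_zero, ← Submodule.mkQ_apply, map_sum]
        simpa only [map_smul] using hg
      intro i
      induction i using Nat.strong_induction_on with
      | _ i ih =>
        intro hi
        have h : y (n i) (∑ j ∈ s, g j • z j) = 0 := (Submodule.mem_iInf _).mp hmem i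
        rw [map_sum, Finset.sum_eq_single i (fun j hj hne => ?_) (fun h => absurd hi h),
          map_smul, hone, smul_eq_mul, mul_one] at h
        · exact h
        · rcases lt_or_gt_of_ne hne with h' | h'
          · rw [ih j h' hj, zero_smul, map_zero]
          · rw [map_smul, hup i j h', smul_zero]
    simpa using hli.lt_aleph0_of_finiteDimensional

end Vale.Agent.P129
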