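import Vale.Agent.P129.Euclid
import Vale.Agent.P129.Strong

/-!
P129: one real number chooses, at every level, a functional; for each point of the space the set
of real numbers whose choices are not absolutely summable at that point is Lebesgue null.
-/

open scoped BigOperators
open Filter Topology MeasureTheory

namespace Vale.Agent.P129

variable {𝕜 : Type*} [RCLike 𝕜] {X : Type*} [NormedAddCommGroup X] [NormedSpace 𝕜 X]

/-- The index read off from a real number at level `k`. -/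
noncomputable def idx (k : ℕ) (u : ℝ) : Fin (16 ^ k) :=
  ⟨⌊Int.fract u * ((16 ^ k : ℕ) : ℝ)⌋₊, by
    rw [Nat.floor_lt (mul_nonneg (Int.fract_nonneg u) (Nat.cast_nonneg _))]
    exact mul_lt_of_lt_one_left (by positivity) (Int.fract_lt_one u)⟩

theorem volume_idx_mem_le (k : ℕ) (s : Finset (Fin (16 ^ k))) (n : ℤ) :
    volume ({u : ℝ | idx k u ∈ s} ∩ Set.Ico (n : ℝ) (n + 1)) ≤
      ENNReal.ofReal ((s.card : ℝ) / ((16 ^ k : ℕ) : ℝ)) := by
  set N : ℝ := ((16 ^ k : ℕ) : ℝ)
  have hN : 0 < N := by positivity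
  have hsub : {u : ℝ | idx k u ∈ s} ∩ Set.Ico (n : ℝ) (n + 1) ⊆
      ⋃ i ∈ s, Set.Icc (n + (i.val : ℝ) / N) (n + ((i.val : ℝ) + 1) / N) := by
    rintro u ⟨hu, hn⟩
    have hfl : ⌊u⌋ = n := Int.floor_eq_iff.mpr ⟨hn.1, hn.2⟩
    have hfr : Int.fract u = u - n := by rw [← Int.self_sub_floor, hfl]
    have h0 : 0 ≤ Int.fract u * N := mul_nonneg (Int.fract_nonneg u) hN.le
    refine Set.mem_iUnion₂.mpr ⟨idx k u, hu, ?_, ?_⟩
    · have : ((idx k u).val : ℝ) ≤ Int.fract u * N := Nat.floor_le h0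
      rw [hfr, ← div_le_iff₀ hN] at this
      linarith
    · have : Int.fract u * N < ((idx k u).val : ℝ) + 1 := Nat.lt_floor_add_one _
      rw [hfr, ← lt_div_iff₀ hN] at this
      linarith
  refine (measure_mono hsub).trans ((measure_biUnion_finset_le s _).trans (le_of_eq ?_))
  have e : ∀ i ∈ s, volume (Set.Icc (n + ((i : Fin (16 ^ k)).val : ℝ) / N)
      (n + ((i.val : ℝ) + 1) / N)) = ENNReal.ofReal (1 / N) := fun i _ => by
    rw [Real.volume_Icc]; congr 1; ring
  rw [Finset.sum_congr rfl e, Finset.sum_const, ← ENNReal.ofReal_nsmul]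
  congr 1
  rw [nsmul_eq_mul]; ring

/-- For a family of slaloms of width `C * 4 ^ k`, almost every real number evades it. -/
theorem volume_frequently_idx_mem (S : ∀ k, Finset (Fin (16 ^ k))) (C : ℕ)
    (hS : ∀ k, (S k).card ≤ C * 4 ^ k) :
    volume {u : ℝ | ∃ᶠ k in atTop, idx k u ∈ S k} = 0 := by
  have hcard : ∀ k, ((S k).card : ℝ) / ((16 ^ k : ℕ) : ℝ) ≤ (C : ℝ) * (1 / 4) ^ k := fun k => by
    rw [div_le_iff₀ (by positivity)]
    push_cast
    rw [mul_assoc, ← mul_pow]
    norm_num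
    exact_mod_cast hS k
  have hnull : ∀ n : ℤ, volume ({u : ℝ | ∃ᶠ k in atTop, idx k u ∈ S k} ∩
      Set.Ico (n : ℝ) (n + 1)) = 0 := fun n => by
    have h := measure_setOfPred_frequently_eq_zero (μ := volume)
      (p := fun k u => idx k u ∈ S k ∧ u ∈ Set.Ico (n : ℝ) (n + 1)) ?_
    · exact measure_mono_null (fun u hu => hu.1.mono fun k hk => ⟨hk, hu.2⟩) h
    · refine ne_top_of_le_ne_top ?_ (ENNReal.tsum_le_tsum fun k => (volume_idx_mem_le k (S k) n).trans
        (ENNReal.ofReal_le_ofReal (hcard k)))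
      rw [← ENNReal.ofReal_tsum_of_nonneg (fun k => by positivity)
        ((summable_geometric_of_lt_one (by norm_num) (by norm_num)).mul_left _)]
      exact ENNReal.ofReal_ne_top
  refine measure_mono_null (fun u hu => ?_) (measure_iUnion_null hnull)
  exact Set.mem_iUnion.mpr ⟨⌊u⌋, hu, Int.floor_le u, Int.lt_floor_add_one u⟩

variable [CompleteSpace X]

/-- If the slaloms given by the points of a dense set can be evaded, there is a separable
infinite-dimensional quotient. -/
theorem separable_quotient_of_evade (hinf : ¬ FiniteDimensional 𝕜 X) {D : Set X} (hD : Dense D)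
    (N : ℕ → ℕ)
    (hevade : ∀ S : D → ∀ k, Finset (Fin (N k)),
      (∀ d, ∃ C : ℕ, ∀ k, (S d k).card ≤ C * 4 ^ k) →
      ∃ h : ∀ k, Fin (N k), ∀ d, ∀ᶠ k in atTop, h k ∉ S d k) :
    ∃ M : Submodule 𝕜 X, IsClosed (M : Set X) ∧ TopologicalSpace.SeparableSpace (X ⧸ M) ∧
      ¬ FiniteDimensional 𝕜 (X ⧸ M) := by
  classical
  have hdual : ¬ FiniteDimensional 𝕜 (X →L[𝕜] 𝕜) := fun h => hinf <| by
    have := h
    set b := Module.finBasis 𝕜 (X →L[𝕜] 𝕜)
    have hinj : Function.Injective (LinearMap.pi fun i => ((b i : X →L[𝕜] 𝕜) : X →ₗ[𝕜] 𝕜)) := by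
      refine (injective_iff_map_eq_zero _).mpr fun x hx => ?_
      obtain ⟨φ, -, hφ⟩ := exists_dual_vector'' 𝕜 x
      have h0 : φ x = 0 := by
        rw [← b.sum_repr φ, sum_apply]
        exact Finset.sum_eq_zero fun i _ => by
          simp [show b i x = 0 from congrFun hx i]
      rw [h0] at hφ
      exact norm_eq_zero.mp (RCLike.ofReal_eq_zero.mp hφ.symm)
    exact FiniteDimensional.of_injective _ hinj
  choose g hlow hup using fun k => exists_upper_two hdual (N k)
  set S : D → ∀ k, Finset (Fin (N k)) := fun d k =>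
    {i | (1 / 2 : ℝ) ^ k < ‖g k i (d : X)‖} with hS
  obtain ⟨h, hh⟩ := hevade S fun d => ⟨⌈‖(d : X)‖ ^ 2⌉₊, fun k => by
    have h1 : ∑ i ∈ S d k, ((1 / 2 : ℝ) ^ k) ^ 2 ≤ ‖(d : X)‖ ^ 2 :=
      ((Finset.sum_le_sum fun i hi => pow_le_pow_left₀ (by positivity)
        (Finset.mem_filter.mp hi).2.le 2).trans
          (Finset.sum_le_univ_sum_of_nonneg fun i => by positivity)).trans
        (sum_sq_apply_le (g k) (hup k) (d : X))
    rw [Finset.sum_const, nsmul_eq_mul, ← pow_mul, mul_comm k 2, pow_mul] at h1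
    norm_num at h1
    have h4 : (0 : ℝ) < (4 : ℝ) ^ k := by positivity
    rw [div_pow, one_pow, mul_one_div, div_le_iff₀ h4] at h1
    have h2 : ((S d k).card : ℝ) ≤ (⌈‖(d : X)‖ ^ 2⌉₊ : ℝ) * 4 ^ k :=
      h1.trans (mul_le_mul_of_nonneg_right (Nat.le_ceil _) h4.le)
    exact_mod_cast h2⟩
  refine separable_quotient_of_strongly_normal (y := fun k => g k (h k)) (fun k => ?_)
    (show (0 : ℝ) < 1 / 4 by norm_num) (by norm_num) (fun k => (hlow k _).le) hD fun x hx => ?_
  · have e := hup k fun i => if i = h k then 1 else 0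
    rw [Finset.sum_eq_single (h k) (fun i _ hi => by ext z; simp [hi])
      (fun h' => absurd (Finset.mem_univ _) h'), if_pos rfl, one_smul] at e
    simpa [apply_ite] using e
  · refine Summable.of_norm_bounded_eventually_nat
      (summable_geometric_of_lt_one (by norm_num : (0 : ℝ) ≤ 1 / 2) (by norm_num)) ?_
    filter_upwards [hh ⟨x, hx⟩] with k hk
    simpa [hS] using hk

/-- Fewer points than null sets needed to cover the line: their slaloms can be evaded. -/
theorem evade_of_not_covered {ι : Type*}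
    (hsmall : ∀ A : ι → Set ℝ, (∀ d, volume (A d) = 0) → (⋃ d, A d) ≠ Set.univ)
    (S : ι → ∀ k, Finset (Fin (16 ^ k)))
    (hS : ∀ d, ∃ C : ℕ, ∀ k, (S d k).card ≤ C * 4 ^ k) :
    ∃ h : ∀ k, Fin (16 ^ k), ∀ d, ∀ᶠ k in atTop, h k ∉ S d k := by
  obtain ⟨u, hu⟩ := (Set.ne_univ_iff_exists_notMem _).mp (hsmall _ fun d =>
    (hS d).elim fun C hC => volume_frequently_idx_mem (S d) C hC)
  simp only [Set.mem_iUnion, not_exists, Set.mem_ofPred_eq, not_frequently] at hu
  exact ⟨fun k => idx k u, hu⟩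

/-- A space whose density is below the covering number of the null ideal has a separable
infinite-dimensional quotient. -/
theorem separable_quotient_of_not_covered (hinf : ¬ FiniteDimensional 𝕜 X) {D : Set X}
    (hD : Dense D)
    (hsmall : ∀ A : D → Set ℝ, (∀ d, volume (A d) = 0) → (⋃ d, A d) ≠ Set.univ) :
    ∃ M : Submodule 𝕜 X, IsClosed (M : Set X) ∧ TopologicalSpace.SeparableSpace (X ⧸ M) ∧
      ¬ FiniteDimensional 𝕜 (X ⧸ M) :=
  separable_quotient_of_evade hinf hD (fun k => 16 ^ k) fun S hS =>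
    evade_of_not_covered hsmall S hS

end Vale.Agent.P129
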